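import Crest.Agent.N250.FV.Var
import Crest.Agent.N250.T.Stm

/-!
# Row 250, first variation (helper35): `MuFinS`, `DivS`, `TransS`, `MuContS` (and `C¹` versions)
-/

set_option autoImplicit false
open MeasureTheory Set Filter Topology Function
open scoped ContDiff InnerProductSpace
open Crest.GeometryTopology.MCF

noncomputable section

namespace Crest.Agent.N250.FV

open Tr

variable {F : Mv} {p : ST} {f g : ST → ℝ} {K : Set ST} {J : Set ℝ} {t : ℝ}

/-- cut-off in time -/
theorem time_cut (hK : F.CS f J) (hJ : J ∈ 𝓝 t) : ∃ (χ : ℝ → ℝ) (K : Set ST), ContDiff ℝ ∞ χ ∧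
    (∀ᶠ s in 𝓝 t, χ s = 1) ∧ CS F (fun p => χ p.2 * f p) K := by
  obtain ⟨K, h1, h2, h3⟩ := hK
  obtain ⟨χ, a, K', -, c, d, e, -⟩ := exists_bump (isCompact_singleton (x := t)) isOpen_interior
    (singleton_subset_iff.2 (mem_interior_iff_mem_nhds.2 hJ))
  refine ⟨χ, K, a, by simpa using d, h1, h2, fun p hp h => ?_⟩
  by_cases h' : p.2 ∈ J
  · rw [h3 p hp h' h, mul_zero]
  · rw [e _ fun h'' => h' (interior_subset (c h'')), zero_mul]

/-- cut-off in spacetime around a slice -/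
theorem slice_cut (hF : F.Reg) (hK : F.CS f {t}) : ∃ (χ : ST → ℝ) (K : Set ST), ContDiff ℝ ∞ χ ∧
    (∀ x, (x, t) ∈ F.M → χ (x, t) * f (x, t) = f (x, t)) ∧ CS F (fun p => χ p * f p) K := by
  obtain ⟨K, h1, h2, h3⟩ := hK
  obtain ⟨O, Z, hO, hZ, e⟩ := locClosed hF
  obtain ⟨χ, a, K', b, c, d, e', -⟩ := exists_bump h1 hO (h2.trans (e ▸ inter_subset_left))
  refine ⟨χ, K' ∩ Z, a, fun x hx => ?_, b.inter_right hZ, e ▸ inter_subset_inter_left _ c,
    fun p hp h => ?_⟩
  · by_cases h : (x, t) ∈ K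
    · rw [d.self_of_nhdsSet _ h, one_mul]
    · rw [h3 _ hx rfl h, mul_zero]
  · rw [e' p fun h' => h ⟨h', (e ▸ hp : p ∈ O ∩ Z).2⟩, zero_mul]

/-- `D` only depends on the values on the slice -/
theorem D_slice (hF : F.Reg) (hp : p ∈ F.M) (hf : DifferentiableWithinAt ℝ f F.M p)
    (hg : DifferentiableWithinAt ℝ g F.M p)
    (h : ∀ᶠ x in 𝓝 p.1, (x, p.2) ∈ F.M → f (x, p.2) = g (x, p.2)) (a : Fin 3) :
    F.D a f p = F.D a g p := by
  obtain ⟨X, U, W, L, hW, k⟩ := exists_ch hF hp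
  have hq := k.inU p hp hW
  have e : Ps X (L p.1, p.2) = p := Prod.ext (k.right p hp hW) rfl
  rw [← e] at hf hg
  have hi := hasFDerivAt_prodMk_left (𝕜 := ℝ) (L p.1) p.2
  have h1 := HasFDerivAt.comp (L p.1) (f := fun y : E2 => (y, p.2)) (k.hasF hq hf) hi
  have h2 := HasFDerivAt.comp (L p.1) (f := fun y : E2 => (y, p.2)) (k.hasF hq hg) hi
  have hc : Tendsto (fun y : E2 => X (y, p.2)) (𝓝 (L p.1)) (𝓝 p.1) := by
    have := (HasFDerivAt.comp (L p.1) (f := fun y : E2 => (y, p.2)) (k.hasX hq) hi).continuousAt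
    rwa [ContinuousAt, Function.comp_apply, k.right p hp hW] at this
  have h3 := h1.unique (h2.congr_of_eventuallyEq (by
    filter_upwards [hc.eventually h, (k.oUt p.2).eventually_mem (x := L p.1) hq] with y a b
    exact a (k.mem _ b)))
  rw [← e, k.D_eq hF hq hf, k.D_eq hF hq hg, (k.hasF hq hf).fderiv, (k.hasF hq hg).fderiv]
  exact congrArg (fun T : E2 →L[ℝ] ℝ => T (La X (L p.1, p.2) (ee a))) h3

theorem intg' (hF : F.Reg) (hf : ContinuousOn f F.M) (hK : F.CS f {t}) :
    Integrable (fun x => f (x, t)) (F.mu t) := by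
  obtain ⟨χ, K, h1, h2, h3⟩ := slice_cut hF hK
  exact (intg hF (h1.continuous.continuousOn.mul hf) h3 t).congr ((ae_sl hF t).mono h2)

/-- first variation, `C¹` and local in time -/
theorem fv' (hF : F.Reg) (hf : ContDiffOn ℝ 1 f F.M) (hK : F.CS f J) (hJ : J ∈ 𝓝 t) :
    HasDerivAt (fun s => ∫ x, f (x, s) ∂F.mu s)
      (∫ x, (F.Dt f (x, t) + f (x, t) * F.V (x, t) * F.H (x, t)) ∂F.mu t) t := by
  obtain ⟨χ, K, h1, h2, h3⟩ := time_cut hK hJ
  have h4 := fv hF (((h1.of_le (by exact_mod_cast le_top)).comp contDiff_snd).contDiffOn.mul hf)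
    h3 t
  have e : ∀ x, (fun p : ST => χ p.2 * f p) =ᶠ[𝓝 (x, t)] f := fun x =>
    ((continuous_snd.tendsto ((x, t) : ST)).eventually h2).mono fun p hp => by
      simp [hp]
  refine (h4.congr_of_eventuallyEq (h2.mono fun s hs => by simp [hs])).congr_deriv ?_
  refine integral_congr_ae ((ae_sl hF t).mono fun x hx => ?_)
  simp only [Function.comp_apply, h2.self_of_nhds, one_mul, Mv.Dt]
  rw [← td_congr hx ((e x).filter_mono nhdsWithin_le_nhds)]

theorem cont_int' (hF : F.Reg) (hf : ContinuousOn f F.M) (hK : F.CS f J) (hJ : J ∈ 𝓝 t) :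
    ContinuousAt (fun s => ∫ x, f (x, s) ∂F.mu s) t := by
  obtain ⟨χ, K, h1, h2, h3⟩ := time_cut hK hJ
  exact (cont_int hF ((h1.continuous.comp continuous_snd).continuousOn.mul hf)
    h3).continuousAt.congr (h2.mono fun s hs => by simp [hs])

/-- integration by parts, `C¹`, compact support in the slice -/
theorem ibp' (hF : F.Reg) (hf : ContDiffOn ℝ 1 f F.M) (hK : F.CS f {t}) (a : Fin 3) :
    ∫ x, F.D a f (x, t) ∂F.mu t = ∫ x, f (x, t) * F.H (x, t) * F.nu a (x, t) ∂F.mu t := by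
  obtain ⟨χ, K, h1, h2, h3⟩ := slice_cut hF hK
  have h4 : ContDiffOn ℝ 1 (fun p => χ p * f p) F.M :=
    (h1.of_le (by exact_mod_cast le_top)).contDiffOn.mul hf
  convert ibp hF h4 h3 a t using 1
  · exact integral_congr_ae ((ae_sl hF t).mono fun x hx => D_slice hF hx
      ((hf _ hx).differentiableWithinAt one_ne_zero) ((h4 _ hx).differentiableWithinAt one_ne_zero)
      (Eventually.of_forall fun y hy => (h2 y hy).symm) a)
  · exact integral_congr_ae ((ae_sl hF t).mono fun x hx => by simp only [h2 x hx])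

theorem mu_fin (hF : F.Reg) (hK : IsCompact K) (hM : K ⊆ F.M) : ∃ C : ℝ, 0 ≤ C ∧ ∀ t y r, 0 < r →
    F.mu t ({x | (x, t) ∈ K} ∩ Metric.ball y r) ≤ ENNReal.ofReal (C * r ^ 2) := by
  refine hK.induction_on (p := fun s => ∃ C : ℝ, 0 ≤ C ∧ ∀ t y r, 0 < r →
    F.mu t ({x | (x, t) ∈ s} ∩ Metric.ball y r) ≤ ENNReal.ofReal (C * r ^ 2)) ?_ ?_ ?_ ?_
  · exact ⟨0, le_rfl, fun t y r _ => by simp⟩
  · rintro s s' h ⟨C, h0, hC⟩
    exact ⟨C, h0, fun t y r hr =>
      le_trans (measure_mono (by exact fun x hx => ⟨h hx.1, hx.2⟩)) (hC t y r hr)⟩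
  · rintro s s' ⟨C, h0, hC⟩ ⟨C', h0', hC'⟩
    refine ⟨C + C', add_nonneg h0 h0', fun t y r hr => ?_⟩
    rw [add_mul, ENNReal.ofReal_add (by positivity) (by positivity)]
    refine le_trans (measure_mono ?_) ((measure_union_le _ _).trans
      (add_le_add (hC t y r hr) (hC' t y r hr)))
    rintro x ⟨h | h, h'⟩
    · exact Or.inl ⟨h, h'⟩
    · exact Or.inr ⟨h, h'⟩
  · intro p hp
    obtain ⟨X, U, W, L, hW, h⟩ := exists_ch hF (hM hp)
    obtain ⟨K1, a, b, c⟩ := exists_compact_subset h.oW hW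
    have hc : CS F (fun _ => 0) (K ∩ K1) := ⟨hK.inter a, inter_subset_left.trans hM, fun _ _ _ => rfl⟩
    obtain ⟨k1, k2, k3⟩ := h.cpt hc (inter_subset_right.trans c)
    obtain ⟨C, hC⟩ := k1.exists_bound_of_continuousOn (h.smRho.continuousOn.mono k2)
    refine ⟨K ∩ K1, inter_mem_nhdsWithin _ (mem_interior_iff_mem_nhds.1 b),
      |C| * ((‖L‖ + 1) ^ 2 * Real.pi), by positivity, fun t y r hr => ?_⟩
    have hS : MeasurableSet ({x | (x, t) ∈ K ∩ K1} ∩ Metric.ball y r) :=
      (hc.cpt.isClosed.preimage (Continuous.prodMk_left t)).measurableSet.inter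
        measurableSet_ball
    rw [← Measure.restrict_eq_self _ (t := {x | (x, t) ∈ W}) fun x hx => c hx.1.2,
      ← lintegral_indicator_one hS, h.lint]
    calc _ ≤ ∫⁻ z in {z | (z, t) ∈ U},
          (Metric.ball (L y) ((‖L‖ + 1) * r)).indicator (fun _ => ENNReal.ofReal |C|) z := by
          refine setLIntegral_mono' (h.oUt t).measurableSet fun z hz => ?_
          by_cases hz' : X (z, t) ∈ {x | (x, t) ∈ K ∩ K1} ∩ Metric.ball y r
          · have h1 : z ∈ Metric.ball (L y) ((‖L‖ + 1) * r) := by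
              have e : z = L (X (z, t)) := (h.left _ hz).symm
              have h2 := mem_ball_iff_norm.1 hz'.2
              rw [mem_ball_iff_norm, e, ← map_sub]
              have := L.le_opNorm (X (z, t) - y)
              nlinarith [norm_nonneg L]
            rw [indicator_of_mem hz', indicator_of_mem h1, Pi.one_apply, mul_one]
            refine ENNReal.ofReal_le_ofReal ((le_abs_self _).trans ((hC _ ?_).trans (le_abs_self _)))
            by_contra h'
            exact k3 _ hz h' hz'.1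
          · rw [indicator_of_notMem hz', mul_zero]; exact zero_le
      _ ≤ _ := by
          refine (setLIntegral_le_lintegral _ _).trans ?_
          rw [lintegral_indicator_const measurableSet_ball, EuclideanSpace.volume_ball_fin_two,
            ← ENNReal.ofReal_pow (by positivity), ← ENNReal.ofReal_mul (by positivity),
            ← ENNReal.ofReal_mul (abs_nonneg _)]
          exact le_of_eq (by congr 1; ring)

end Crest.Agent.N250.FV

namespace Crest.Agent.N250

theorem muFinS_holds : MuFinS := fun _ hF _ hK hM =>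
  (FV.mu_fin hF hK hM).imp fun _ h => h.2

theorem divS_holds : DivS := fun _ hF _ _ a hf hK => FV.ibp' hF (FV.Sm.le hf 1) hK a

theorem transS_holds : TransS := fun _ hF _ _ hJ hf hK _ ht =>
  FV.fv' hF (FV.Sm.le hf 1) hK (hJ.mem_nhds ht)

theorem muContS_holds : MuContS := fun _ hF _ _ hJ hf hK _ ht =>
  (FV.cont_int' hF hf hK (hJ.mem_nhds ht)).continuousWithinAt

end Crest.Agent.N250

end
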