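import Crest.Agent.N250.FV.Hu3
import Crest.Agent.N250.FV.Main
import Crest.Agent.N250.T.Gau

/-!
# Row 250, monotonicity formula (helper23): closed forms
-/

namespace Crest.Agent.N250

theorem wMonoS_holds : WMonoS := wMonoS_of muFinS_holds divS_holds transS_holds

theorem huiskenS_holds : HuiskenS :=
  huiskenS_of muFinS_holds muContS_holds wMonoS_holds gauS_holds

end Crest.Agent.N250
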