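import Crest.Agent.N250.FV.Hu4
import Crest.Agent.N250.T.Gau
import Crest.Agent.N250.A.A2

/-!
# Row 250 (helper35): closed form of `A2S`
-/

set_option autoImplicit false

namespace Crest.Agent.N250

theorem A.a2S_holds : A.A2S := A.a2S_of huiskenS_holds gauS_holds

end Crest.Agent.N250
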