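import Crest.Agent.N250.T.Stm
import Crest.Agent.N250.Tr.Base

/-!
# Row 250, monotonicity formula (helper23): calculus and measure basics on a track
-/

set_option autoImplicit false
open MeasureTheory Set Filter Topology
open scoped ContDiff InnerProductSpace
open Crest.GeometryTopology.MCF

noncomputable section

namespace Crest.Agent.N250.Hu

open Tr

variable {F : Mv} {p : ST} {f g : ST → ℝ} {w : ST}

theorem hfd (hf : F.Sm f) (hM : p ∈ F.M) : HasFDerivWithinAt f (F.td f p) F.M p :=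
  ((hf p hM).differentiableWithinAt (by simp)).hasFDerivWithinAt

theorem td_add (hf : F.Sm f) (hg : F.Sm g) (hM : p ∈ F.M) (hw : w ∈ tangentConeAt ℝ F.M p) :
    F.td (fun q => f q + g q) p w = F.td f p w + F.td g p w := by
  rw [td_eq ((hfd hf hM).fun_add (hfd hg hM)) hw]; simp

theorem td_sub (hf : F.Sm f) (hg : F.Sm g) (hM : p ∈ F.M) (hw : w ∈ tangentConeAt ℝ F.M p) :
    F.td (fun q => f q - g q) p w = F.td f p w - F.td g p w := by
  rw [td_eq ((hfd hf hM).fun_sub (hfd hg hM)) hw]; simp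

theorem td_mul (hf : F.Sm f) (hg : F.Sm g) (hM : p ∈ F.M) (hw : w ∈ tangentConeAt ℝ F.M p) :
    F.td (fun q => f q * g q) p w = f p * F.td g p w + g p * F.td f p w := by
  rw [td_eq ((hfd hf hM).fun_mul (hfd hg hM)) hw]; simp

theorem td_cmul (c : ℝ) (hf : F.Sm f) (hM : p ∈ F.M) (hw : w ∈ tangentConeAt ℝ F.M p) :
    F.td (fun q => c * f q) p w = c * F.td f p w := by
  rw [td_eq ((hfd hf hM).const_mul c) hw]; simp

theorem td_comp {η : ℝ → ℝ} {e : ℝ} (hf : F.Sm f) (hM : p ∈ F.M)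
    (hw : w ∈ tangentConeAt ℝ F.M p) (hη : HasDerivAt η e (f p)) :
    F.td (fun q => η (f q)) p w = e * F.td f p w := by
  exact td_eq (hη.comp_hasFDerivWithinAt p (hfd hf hM)) hw

theorem td_amb {L : ST →L[ℝ] ℝ} (h : HasFDerivAt f L p) (hw : w ∈ tangentConeAt ℝ F.M p) :
    F.td f p w = L w := td_eq h.hasFDerivWithinAt hw

theorem td_zero (hM : p ∈ F.M) (h : f =ᶠ[𝓝[F.M] p] fun _ => 0) : F.td f p = 0 := by
  rw [td_congr hM h]; simp [Mv.td]

theorem sm_td {v : ST → ST} (hf : F.Sm f) (hv : F.Sm v)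
    (ht : ∀ q ∈ F.M, v q ∈ tangentConeAt ℝ F.M q) : F.Sm fun q => F.td f q (v q) := by
  intro p hM
  rw [contDiffWithinAt_infty]
  intro m
  have h1 : ContDiffWithinAt ℝ ((m : ℕ∞ω) + 1) f F.M p := (hf p hM).of_le (by exact_mod_cast le_top)
  obtain ⟨u, hu, -, f', h2, h3⟩ := (contDiffWithinAt_succ_iff_hasFDerivWithinAt (by simp)).1 h1
  rw [insert_eq_of_mem hM] at hu
  have h4 : ContDiffWithinAt ℝ m v F.M p := (hv p hM).of_le (by exact_mod_cast le_top)
  have h5 := (h3.mono_of_mem_nhdsWithin hu).clm_apply h4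
  have h6 : ∀ᶠ q in 𝓝[F.M] p, F.td f q (v q) = f' q (v q) := by
    filter_upwards [self_mem_nhdsWithin, eventually_eventually_nhdsWithin.2 hu, hu] with q a1 a2 a3
    exact td_eq ((h2 q a3).mono_of_mem_nhdsWithin a2) (ht q a1)
  exact h5.congr_of_eventuallyEq h6 (h6.self_of_nhdsWithin hM)

theorem H_eq (F : Mv) (p : ST) : F.H p = ∑ a, F.D a (F.nu a) p := by
  simp [Mv.H, Mv.A, Finset.sum_apply]

theorem lap_eq (F : Mv) (f : ST → ℝ) (p : ST) : F.lap f p = ∑ a, F.D a (F.D a f) p := by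
  simp [Mv.lap, N222.Pre.lap, Finset.sum_apply]

theorem box_eq (F : Mv) (f : ST → ℝ) (p : ST) :
    F.box f p = F.Dt f p - ∑ a, F.D a (F.D a f) p := by
  simp [Mv.box, lap_eq]

theorem sm_H (hF : F.Reg) : F.Sm F.H := by
  have : F.H = fun p => ∑ a, F.D a (F.nu a) p := funext (H_eq F)
  rw [this]
  exact ContDiffOn.sum fun a _ => sm_D hF (sm_nu hF a) a

theorem sm_lap (hF : F.Reg) (hf : F.Sm f) : F.Sm (F.lap f) := by
  have : F.lap f = fun p => ∑ a, F.D a (F.D a f) p := funext (lap_eq F f)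
  rw [this]
  exact ContDiffOn.sum fun a _ => sm_D hF (sm_D hF hf a) a

theorem sm_V (hF : F.IsMCF) : F.Sm F.V :=
  (sm_H hF.1).neg.congr fun p hp => hF.2 p hp

theorem sm_Dt (hF : F.IsMCF) (hf : F.Sm f) : F.Sm (F.Dt f) :=
  sm_td hf (((sm_V hF).smul (sm_n hF.1)).prodMk contDiffOn_const) fun _ hq => vel_mem hF.1 hq

theorem sm_box (hF : F.IsMCF) (hf : F.Sm f) : F.Sm (F.box f) :=
  (sm_Dt hF hf).sub (sm_lap hF.1 hf)

theorem sm_xn (hF : F.Reg) (y : E) : F.Sm (F.xn y) :=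
  (contDiffOn_fst.sub contDiffOn_const).inner ℝ (sm_n hF)

theorem sm_co (F : Mv) (y : E) (a : Fin 3) : F.Sm fun q : ST => (q.1 - y) a :=
  ((EuclideanSpace.proj a : E →L[ℝ] ℝ).contDiff.comp
    (contDiff_fst.sub contDiff_const)).contDiffOn

theorem PL_n (hF : F.Reg) (hM : p ∈ F.M) : F.PL p (F.n p) = 0 := by
  simp [Mv.PL, n_unit hF hM]

/-- gradients are tangent -/
theorem sum_nu_D (hF : F.Reg) (hM : p ∈ F.M) (f : ST → ℝ) : ∑ a, F.nu a p * F.D a f p = 0 := by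
  have := td_PL (F := F) f p (F.n p)
  rw [PL_n hF hM, show (((0 : E), (0 : ℝ)) : ST) = 0 from rfl, map_zero] at this
  exact this.symm

theorem inner_sum' (u v : E) : ⟪u, v⟫_ℝ = ∑ a, u a * v a := by
  simp only [PiLp.inner_apply, RCLike.inner_apply, conj_trivial, mul_comm]

theorem inner_ee (u : E) (a : Fin 3) : ⟪u, ee a⟫_ℝ = u a := by
  simp [ee, EuclideanSpace.inner_single_right]

theorem PL_ee (F : Mv) (p : ST) (v : E) (a : Fin 3) :
    ⟪v, F.PL p (ee a)⟫_ℝ = v a - ⟪v, F.n p⟫_ℝ * F.nu a p := by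
  simp only [Mv.PL, inner_sub_right, inner_smul_right, Mv.nu, inner_ee, mul_comm]

theorem sum_nu_sq (hF : F.Reg) (hM : p ∈ F.M) : ∑ a, F.nu a p * F.nu a p = 1 := by
  have := n_n hF hM
  rwa [inner_sum'] at this

theorem sum_co_nu (F : Mv) (y : E) (p : ST) : ∑ a, (p.1 - y) a * F.nu a p = F.xn y p := by
  rw [Mv.xn, inner_sum']; rfl

theorem sum_co_sq (y x : E) : ∑ a, (x - y) a * (x - y) a = ‖x - y‖ ^ 2 := by
  rw [← real_inner_self_eq_norm_sq, inner_sum']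

theorem xn_sq_le (hF : F.Reg) (hM : p ∈ F.M) (y : E) : F.xn y p ^ 2 ≤ ‖p.1 - y‖ ^ 2 := by
  have h := abs_real_inner_le_norm (p.1 - y) (F.n p)
  rw [n_unit hF hM, mul_one] at h
  exact sq_le_sq' (neg_le_of_abs_le h) (le_of_abs_le h)

theorem D_co (hF : F.Reg) (hM : p ∈ F.M) (y : E) (a : Fin 3) :
    F.D a (fun q : ST => (q.1 - y) a) p = 1 - F.nu a p * F.nu a p := by
  have h : HasFDerivAt (fun q : ST => (q.1 - y) a)
      ((EuclideanSpace.proj a : E →L[ℝ] ℝ).comp (ContinuousLinearMap.fst ℝ E ℝ)) p :=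
    (EuclideanSpace.proj a : E →L[ℝ] ℝ).hasFDerivAt.comp p (hasFDerivAt_fst.sub_const y)
  rw [D_def, td_amb h (PL_mem hF hM _)]
  simp [Mv.PL, Mv.nu, inner_ee]

theorem sum_D_co (hF : F.Reg) (hM : p ∈ F.M) (y : E) :
    ∑ a, F.D a (fun q : ST => (q.1 - y) a) p = 2 := by
  simp only [D_co hF hM, Finset.sum_sub_distrib, sum_nu_sq hF hM]
  norm_num

/-! ### measure -/

theorem meas_M (hF : F.Reg) : MeasurableSet F.M := by
  have : IsLocallyClosed F.M := by
    refine ((isLocallyClosed_tfae F.M).out 2 0).1 ?_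
    intro p hp
    obtain ⟨W, φ, hW, h⟩ := hF p hp
    refine ⟨W, h.isOpen.mem_nhds hW, ?_⟩
    have h1 : ((↑) : W → ST) ⁻¹' F.M = (fun q : W => φ q) ⁻¹' {0} := by
      ext q; exact h.mem q q.2
    rw [h1]
    exact isClosed_singleton.preimage (continuousOn_iff_continuous_domRestrict.1 h.sm.continuousOn)
  obtain ⟨U, Z, hU, hZ, h⟩ := this
  rw [h]; exact hU.measurableSet.inter hZ.measurableSet

theorem meas_sl (hF : F.Reg) (t : ℝ) : MeasurableSet (F.sl t) :=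
  measurable_prodMk_right (meas_M hF)

theorem ae_sl (hF : F.Reg) (t : ℝ) : ∀ᵐ x ∂F.mu t, (x, t) ∈ F.M :=
  ae_restrict_mem (meas_sl hF t)

theorem cont_sl {t : ℝ} {S : Set ST} (hg : ContinuousOn g (F.M ∩ S)) (hS : ∀ x, (x, t) ∈ S) :
    ContinuousOn (fun x => g (x, t)) (F.sl t) :=
  hg.comp (Continuous.prodMk_left t).continuousOn fun x hx => ⟨hx, hS x⟩

theorem aesm_sl (hF : F.Reg) {t : ℝ} {u : E → ℝ} (hu : ContinuousOn u (F.sl t)) :
    AEStronglyMeasurable u (F.mu t) := hu.aestronglyMeasurable (meas_sl hF t)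

theorem int_congr (hF : F.Reg) {t : ℝ} {u v : E → ℝ} (h : ∀ x, (x, t) ∈ F.M → u x = v x) :
    ∫ x, u x ∂F.mu t = ∫ x, v x ∂F.mu t :=
  integral_congr_ae ((ae_sl hF t).mono h)

/-- continuous functions with compact support in the slice are integrable -/
theorem int_cpt (hM : MuFinS) (hF : F.Reg) {t : ℝ} {u : E → ℝ} (hu : ContinuousOn u (F.sl t))
    {K : Set ST} (hK : IsCompact K) (hKM : K ⊆ F.M)
    (h0 : ∀ x, (x, t) ∈ F.M → (x, t) ∉ K → u x = 0) : Integrable u (F.mu t) := by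
  have hc : IsCompact {x : E | (x, t) ∈ K} :=
    (hK.image continuous_fst).of_isClosed_subset
      (hK.isClosed.preimage (Continuous.prodMk_left t)) fun x hx => ⟨_, hx, rfl⟩
  obtain ⟨C, hC⟩ := hM F hF K hK hKM
  obtain ⟨r, hr0, hr⟩ := hc.isBounded.subset_ball_lt 0 (0 : E)
  have hfin : F.mu t {x : E | (x, t) ∈ K} < ⊤ := by
    have := hC t 0 r hr0
    rw [inter_eq_left.2 hr] at this
    exact this.trans_lt ENNReal.ofReal_lt_top
  obtain ⟨B, hB⟩ := hc.exists_bound_of_continuousOn (hu.mono fun x hx => hKM hx)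
  have h1 : IntegrableOn u {x : E | (x, t) ∈ K} (F.mu t) :=
    Measure.integrableOn_of_bounded hfin.ne (aesm_sl hF hu)
      ((ae_restrict_mem hc.measurableSet).mono hB)
  refine (integrable_congr ?_).1 ((integrable_indicator_iff hc.measurableSet).2 h1)
  filter_upwards [ae_sl hF t] with x hx
  by_cases h : (x, t) ∈ K
  · exact indicator_of_mem (s := {x : E | (x, t) ∈ K}) h _
  · rw [indicator_of_notMem (s := {x : E | (x, t) ∈ K}) h, h0 x hx h]

theorem int_CS (hM : MuFinS) (hF : F.Reg) {J : Set ℝ} {t : ℝ} (ht : t ∈ J)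
    (hg : ContinuousOn (fun x => g (x, t)) (F.sl t)) (hc : F.CS g J) :
    Integrable (fun x => g (x, t)) (F.mu t) := by
  obtain ⟨K, h1, h2, h3⟩ := hc
  exact int_cpt hM hF hg h1 h2 fun x hx hk => h3 _ hx ht hk

theorem int_Sm (hM : MuFinS) (hF : F.Reg) {J : Set ℝ} {t : ℝ} (ht : t ∈ J)
    (hg : F.Sm g) (hc : F.CS g J) : Integrable (fun x => g (x, t)) (F.mu t) :=
  int_CS hM hF ht (cont_sl (S := univ) (hg.continuousOn.mono inter_subset_left) fun _ => trivial) hc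

theorem CS_mono {J J' : Set ℝ} (h : F.CS f J) (hJ : J' ⊆ J) : F.CS f J' := by
  obtain ⟨K, h1, h2, h3⟩ := h
  exact ⟨K, h1, h2, fun p hp ht => h3 p hp (hJ ht)⟩

/-- everything built from the germ of `f` along the track has the same support -/
theorem CS_of {J : Set ℝ} (hJ : IsOpen J) (h : F.CS f J)
    (hg : ∀ p ∈ F.M, (f =ᶠ[𝓝[F.M] p] fun _ => 0) → g p = 0) : F.CS g J := by
  obtain ⟨K, h1, h2, h3⟩ := h
  refine ⟨K, h1, h2, fun p hp ht hk => hg p hp ?_⟩
  filter_upwards [self_mem_nhdsWithin,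
    mem_nhdsWithin_of_mem_nhds (h1.isClosed.isOpen_compl.mem_nhds hk),
    mem_nhdsWithin_of_mem_nhds ((hJ.preimage continuous_snd).mem_nhds ht)] with q a b c
  exact h3 q a c b

theorem ev_td {v : ST → ST} (h : f =ᶠ[𝓝[F.M] p] fun _ => 0) :
    (fun q => F.td f q (v q)) =ᶠ[𝓝[F.M] p] fun _ => 0 := by
  filter_upwards [self_mem_nhdsWithin, eventually_eventually_nhdsWithin.2 h] with q a b
  rw [td_zero a b]; rfl

theorem CS_D {J : Set ℝ} (hJ : IsOpen J) (h : F.CS f J) (a : Fin 3) : F.CS (F.D a f) J :=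
  CS_of hJ h fun p hp h0 => by rw [D_def, td_zero hp h0]; rfl

theorem CS_Dt {J : Set ℝ} (hJ : IsOpen J) (h : F.CS f J) : F.CS (F.Dt f) J :=
  CS_of hJ h fun p hp h0 => by rw [Mv.Dt, td_zero hp h0]; rfl

theorem CS_imp {J : Set ℝ} (h : F.CS f J) (hg : ∀ p, f p = 0 → g p = 0) : F.CS g J := by
  obtain ⟨K, h1, h2, h3⟩ := h
  exact ⟨K, h1, h2, fun p hp ht hk => hg p (h3 p hp ht hk)⟩

theorem reg_res (hF : F.Reg) {Ω : Set ST} (hΩ : IsOpen Ω) : (F.res Ω).Reg := by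
  rintro p ⟨hp, hpΩ⟩
  obtain ⟨W, φ, hW, h⟩ := hF p hp
  refine ⟨W ∩ Ω, φ, ⟨hW, hpΩ⟩, h.isOpen.inter hΩ, h.sm.mono inter_subset_left,
    fun q hq => h.ne q hq.1, fun q hq => ?_, fun q hq hm => h.n_eq q hq.1 hm.1,
    fun q hq hm => h.V_eq q hq.1 hm.1⟩
  rw [← h.mem q hq.1]
  exact ⟨fun a => a.1, fun a => ⟨a, hq.2⟩⟩

/-- continuity in time for functions that are continuous only for times in `J` -/
theorem muCont (hC : MuContS) (hF : F.Reg) {J : Set ℝ} (hJ : IsOpen J)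
    (hg : ContinuousOn g (F.M ∩ univ ×ˢ J)) (hc : F.CS g J) :
    ContinuousOn (fun s => ∫ x, g (x, s) ∂F.mu s) J := by
  intro t ht
  obtain ⟨K, h1, h2, h3⟩ := hc
  obtain ⟨L, hL, hLt, hLJ⟩ := exists_compact_subset hJ ht
  have h4 := hC (F.res (univ ×ˢ J)) (reg_res hF (isOpen_univ.prod hJ)) g (interior L)
    isOpen_interior hg ⟨K ∩ univ ×ˢ L, h1.inter_right (isClosed_univ.prod hL.isClosed),
      fun q hq => ⟨h2 hq.1, trivial, hLJ hq.2.2⟩,
      fun q hq hs hk => h3 q hq.1 hq.2.2 fun a => hk ⟨a, trivial, interior_subset hs⟩⟩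
  refine (((h4.continuousAt (isOpen_interior.mem_nhds hLt))).congr ?_).continuousWithinAt
  filter_upwards [hJ.mem_nhds ht] with s hs
  have : (F.res (univ ×ˢ J)).sl s = F.sl s := by
    ext x; exact ⟨fun a => a.1, fun a => ⟨a, trivial, hs⟩⟩
  simp only [Mv.mu, this]

end Crest.Agent.N250.Hu

end
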