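import Crest.Agent.N250.FV.Hu0

/-!
# Row 250, monotonicity formula (helper23): the weighted formula `WMonoS`
-/

set_option autoImplicit false
open MeasureTheory Set Filter Topology
open scoped ContDiff InnerProductSpace
open Crest.GeometryTopology.MCF

noncomputable section

namespace Crest.Agent.N250.Hu

open Tr

variable {F : Mv} {p : ST} {f g : ST → ℝ}

theorem exists_sig (T δ : ℝ) (hδ : 0 < δ) : ∃ σ : ℝ → ℝ, ContDiff ℝ ∞ σ ∧ (∀ s, 0 < σ s) ∧
    ∀ s, s ≤ T - δ → σ s = T - s := by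
  refine ⟨fun s => Real.smoothTransition ((T - s) / δ) * (T - s) +
    (1 - Real.smoothTransition ((T - s) / δ)), ?_, fun s => ?_, fun s hs => ?_⟩
  · have h : ContDiff ℝ ∞ fun s : ℝ => Real.smoothTransition ((T - s) / δ) :=
      Real.smoothTransition.contDiff.comp ((contDiff_const.sub contDiff_id).div_const δ)
    exact (h.mul (contDiff_const.sub contDiff_id)).add (contDiff_const.sub h)
  · have h0 := Real.smoothTransition.nonneg ((T - s) / δ)
    have h1 := Real.smoothTransition.le_one ((T - s) / δ)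
    rcases le_or_gt (T - s) 0 with h | h
    · simp only [Real.smoothTransition.zero_of_nonpos (div_nonpos_of_nonpos_of_nonneg h hδ.le)]
      norm_num
    · rcases h1.eq_or_lt with h2 | h2
      · simp only [h2]; linarith
      · have := mul_nonneg h0 h.le
        show 0 < _ + _
        linarith
  · have : 1 ≤ (T - s) / δ := by rw [le_div_iff₀ hδ]; linarith
    simp only [Real.smoothTransition.one_of_one_le this]
    ring

theorem gau_pos (y : E) {s : ℝ} (hs : 0 < s) (x : E) : 0 < gau y s x := by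
  unfold gau; have := Real.pi_pos; positivity

theorem contDiff_gau (y : E) {σ : ℝ → ℝ} (hσ : ContDiff ℝ ∞ σ) (h0 : ∀ s, 0 < σ s) :
    ContDiff ℝ ∞ fun p : ST => gau y (σ p.2) p.1 := by
  have h1 : ContDiff ℝ ∞ fun p : ST => σ p.2 := hσ.comp contDiff_snd
  have h2 : ContDiff ℝ ∞ fun p : ST => ‖p.1 - y‖ ^ 2 :=
    (contDiff_fst.sub contDiff_const).norm_sq ℝ
  unfold gau
  refine ((contDiff_const.mul h1).inv fun p => ?_).mul
    (Real.contDiff_exp.comp (h2.neg.div (contDiff_const.mul h1) fun p => ?_))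
  · have := Real.pi_pos; have := h0 p.2; positivity
  · have := h0 p.2; positivity

theorem hasFDeriv_q (y : E) (p : ST) : HasFDerivAt (fun q : ST => ‖q.1 - y‖ ^ 2)
    ((2 : ℝ) • (innerSL ℝ (p.1 - y)).comp (ContinuousLinearMap.fst ℝ E ℝ)) p := by
  have := (hasFDerivAt_fst (𝕜 := ℝ) (p := p) |>.sub_const y).norm_sq
  refine this.congr_fderiv ?_
  ext <;> simp

theorem hasFDeriv_Phi (X : ST) (hp : p.2 < X.2) : ∃ L : ST →L[ℝ] ℝ, HasFDerivAt (Phi X) L p ∧
    ∀ v c, L (v, c) = Phi X p * (-⟪p.1 - X.1, v⟫_ℝ / (2 * (X.2 - p.2)) +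
      c * (1 / (X.2 - p.2) - ‖p.1 - X.1‖ ^ 2 / (4 * (X.2 - p.2) ^ 2))) := by
  have hs : 0 < X.2 - p.2 := sub_pos.2 hp
  have hpi := Real.pi_pos
  have h1 : HasFDerivAt (fun q : ST => X.2 - q.2) (-(ContinuousLinearMap.snd ℝ E ℝ)) p :=
    (hasFDerivAt_snd (𝕜 := ℝ) (p := p)).const_sub X.2
  have hA := ((hasDerivAt_inv (x := 4 * Real.pi * (X.2 - p.2)) (by positivity)).comp_hasFDerivAt p
    (h1.const_mul (4 * Real.pi)))
  have hB := ((hasDerivAt_inv (x := 4 * (X.2 - p.2)) (by positivity)).comp_hasFDerivAt p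
    (h1.const_mul 4))
  have hC := ((hasFDeriv_q X.1 p).fun_neg.fun_mul hB).exp
  have hD := hA.fun_mul hC
  refine ⟨_, hD.congr_of_eventuallyEq (Eventually.of_forall fun q => ?_), fun v c => ?_⟩
  · simp only [Phi, gau, div_eq_mul_inv, Function.comp]
  · simp only [Phi, gau, div_eq_mul_inv, Function.comp, add_apply,
      smul_apply, neg_apply, smul_eq_mul,
      ContinuousLinearMap.comp_apply, ContinuousLinearMap.coe_fst', ContinuousLinearMap.coe_snd',
      innerSL_apply_apply]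
    field_simp
    ring

/-- the divergence theorem for vector fields, with an integrable remainder -/
theorem int_div (hM : MuFinS) (hD : DivS) (hF : F.Reg) {J : Set ℝ} (hJ : IsOpen J) {t : ℝ}
    (ht : t ∈ J) {Y : Fin 3 → ST → ℝ} (hY : ∀ a, F.Sm (Y a)) (hc : ∀ a, F.CS (Y a) J) :
    Integrable (fun x => ∑ a, (F.D a (Y a) (x, t) - Y a (x, t) * F.H (x, t) * F.nu a (x, t)))
      (F.mu t) ∧
    ∫ x, ∑ a, (F.D a (Y a) (x, t) - Y a (x, t) * F.H (x, t) * F.nu a (x, t)) ∂F.mu t = 0 := by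
  have i1 : ∀ a, Integrable (fun x => F.D a (Y a) (x, t)) (F.mu t) := fun a =>
    int_Sm hM hF ht (sm_D hF (hY a) a) (CS_D hJ (hc a) a)
  have i2 : ∀ a, Integrable (fun x => Y a (x, t) * F.H (x, t) * F.nu a (x, t)) (F.mu t) := fun a =>
    int_Sm (g := fun p => Y a p * F.H p * F.nu a p) hM hF ht
      (((hY a).mul (sm_H hF)).mul (sm_nu hF a)) (CS_imp (hc a) fun p h => by simp [h])
  refine ⟨integrable_finsetSum _ fun a _ => (i1 a).sub (i2 a), ?_⟩
  rw [integral_finsetSum (f := fun a x => F.D a (Y a) (x, t) -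
    Y a (x, t) * F.H (x, t) * F.nu a (x, t)) _ fun a _ => (i1 a).sub (i2 a)]
  refine Finset.sum_eq_zero fun a _ => ?_
  rw [integral_sub (i1 a) (i2 a), hD F hF (Y a) t a (hY a) (CS_mono (hc a) (by simpa using ht)),
    sub_self]

/-- the pointwise identity behind the monotonicity formula -/
theorem mono_pt (hF : F.IsMCF) (hf : F.Sm f) {X : ST} {Ψ : ST → ℝ} (hΨ : F.Sm Ψ) (hM : p ∈ F.M)
    (hp : p.2 < X.2) (he : Ψ =ᶠ[𝓝 p] Phi X) :
    F.Dt (fun q => f q * Ψ q) p + f p * Ψ p * F.V p * F.H p =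
      (F.box f p - f p * F.dev X p ^ 2) * Phi X p +
      ∑ a, (F.D a (fun q => Ψ q * F.D a f q + (2 * (X.2 - p.2))⁻¹ * (f q * Ψ q * (q.1 - X.1) a)) p -
        (Ψ p * F.D a f p + (2 * (X.2 - p.2))⁻¹ * (f p * Ψ p * (p.1 - X.1) a)) * F.H p *
          F.nu a p) := by
  have hR := hF.1
  obtain ⟨L, hL, hL'⟩ := hasFDeriv_Phi X hp
  have hL2 : HasFDerivAt Ψ L p := hL.congr_of_eventuallyEq he
  have e0 : Ψ p = Phi X p := he.self_of_nhds
  have hs : X.2 - p.2 ≠ 0 := (sub_pos.2 hp).ne'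
  have eD : ∀ a, F.D a Ψ p =
      Phi X p * (-((p.1 - X.1) a - F.xn X.1 p * F.nu a p) / (2 * (X.2 - p.2))) := fun a => by
    rw [D_def, td_amb hL2 (PL_mem hR hM _), hL', PL_ee]; simp [Mv.xn]
  have eT : F.Dt Ψ p = Phi X p * (F.H p * F.xn X.1 p / (2 * (X.2 - p.2)) +
      (1 / (X.2 - p.2) - ‖p.1 - X.1‖ ^ 2 / (4 * (X.2 - p.2) ^ 2))) := by
    rw [Mv.Dt, td_amb hL2 (vel_mem hR hM), hL', inner_smul_right, hF.2 p hM]; simp [Mv.xn]
  have e1 : F.Dt (fun q => f q * Ψ q) p = f p * F.Dt Ψ p + Ψ p * F.Dt f p :=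
    td_mul hf hΨ hM (vel_mem hR hM)
  have e2 : ∀ a, F.D a (fun q => Ψ q * F.D a f q +
      (2 * (X.2 - p.2))⁻¹ * (f q * Ψ q * (q.1 - X.1) a)) p =
      Ψ p * F.D a (F.D a f) p + F.D a f p * F.D a Ψ p + (2 * (X.2 - p.2))⁻¹ *
        (f p * Ψ p * F.D a (fun q : ST => (q.1 - X.1) a) p +
          (p.1 - X.1) a * (f p * F.D a Ψ p + Ψ p * F.D a f p)) := fun a => by
    have hw := PL_mem hR hM (ee a)
    simp only [D_def F a _ p]
    rw [td_add (hΨ.mul (sm_D hR hf a)) (contDiffOn_const.mul ((hf.mul hΨ).mul (sm_co F _ a))) hM hw,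
      td_mul hΨ (sm_D hR hf a) hM hw, td_cmul _ ((hf.mul hΨ).mul (sm_co F _ a)) hM hw,
      td_mul (hf.mul hΨ) (sm_co F _ a) hM hw, td_mul hf hΨ hM hw]
    rfl
  have s1 := sum_nu_D hR hM f
  have s2 := sum_D_co hR hM X.1
  have s3 := sum_co_nu F X.1 p
  have s4 := sum_co_sq X.1 p.1
  simp only [e1, e2, eD, eT, e0, box_eq, Mv.dev, hF.2 p hM]
  simp only [Fin.sum_univ_three] at s1 s2 s3 s4 ⊢
  rw [← s4]
  generalize F.D 0 (fun q : ST => (q.1 - X.1) 0) p = c0 at s2 ⊢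
  generalize F.D 1 (fun q : ST => (q.1 - X.1) 1) p = c1 at s2 ⊢
  generalize F.D 2 (fun q : ST => (q.1 - X.1) 2) p = c2 at s2 ⊢
  generalize X.2 - p.2 = s at hs ⊢
  field_simp
  linear_combination 4 * (-(2 * s * Phi X p * F.xn X.1 p) + 4 * s ^ 2 * Phi X p * F.H p) * s1
    - 8 * s * f p * Phi X p * s2
    + 4 * (-(f p * Phi X p * F.xn X.1 p) + 2 * s * f p * Phi X p * F.H p) * s3

end Crest.Agent.N250.Hu

theorem Crest.Agent.N250.wMonoS_of (hM : Crest.Agent.N250.MuFinS) (hD : Crest.Agent.N250.DivS)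
    (hT : Crest.Agent.N250.TransS) : Crest.Agent.N250.WMonoS := by
  open Crest.Agent.N250 Crest.Agent.N250.Hu Crest.Agent.N250.Tr in
  intro F hF X f J hJ hJX hf hc t ht
  have hR := hF.1
  have htX : t < X.2 := hJX ht
  obtain ⟨σ, hσ, h0, h1⟩ := exists_sig X.2 ((X.2 - t) / 2) (by linarith)
  have hΨ : F.Sm fun p : ST => gau X.1 (σ p.2) p.1 := (contDiff_gau X.1 hσ h0).contDiffOn
  set Ψ : ST → ℝ := fun p => gau X.1 (σ p.2) p.1 with hΨd
  have hev : ∀ᶠ s in 𝓝 t, σ s = X.2 - s := by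
    filter_upwards [Iic_mem_nhds (show t < X.2 - (X.2 - t) / 2 by linarith)] with s hs using h1 s hs
  have he : ∀ x, Ψ =ᶠ[𝓝 (x, t)] Phi X := fun x => by
    filter_upwards [(continuous_snd.tendsto (x, t)).eventually hev] with q hq
    simp only [hΨd, Phi, hq]
  have hc2 : F.CS (fun q => f q * Ψ q) J := CS_imp hc fun p h => by simp [h]
  have h2 := hT F hR (fun q => f q * Ψ q) J hJ (hf.mul hΨ) hc2 t ht
  obtain ⟨i1, i2⟩ := int_div hM hD hR hJ ht
    (Y := fun a q => Ψ q * F.D a f q + (2 * (X.2 - t))⁻¹ * (f q * Ψ q * (q.1 - X.1) a))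
    (fun a => (hΨ.mul (sm_D hR hf a)).add (contDiffOn_const.mul ((hf.mul hΨ).mul (sm_co F _ a))))
    (fun a => CS_of hJ hc fun p hp h => by
      have a1 : f p = 0 := h.self_of_nhdsWithin hp
      have a2 : F.D a f p = 0 := by rw [D_def, td_zero hp h]; rfl
      simp [a1, a2])
  have i3 : Integrable (fun x => F.Dt (fun q => f q * Ψ q) (x, t) +
      f (x, t) * Ψ (x, t) * F.V (x, t) * F.H (x, t)) (F.mu t) :=
    (int_Sm hM hR ht (sm_Dt hF (hf.mul hΨ)) (CS_Dt hJ hc2)).add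
      (int_Sm (g := fun p => f p * Ψ p * F.V p * F.H p) hM hR ht
        (((hf.mul hΨ).mul (sm_V hF)).mul (sm_H hR)) (CS_imp hc fun p h => by simp [h]))
  have h3 := integral_sub i3 i1
  rw [i2, sub_zero] at h3
  rw [← h3, int_congr hR (v := fun x => (F.box f (x, t) - f (x, t) * F.dev X (x, t) ^ 2) *
    Phi X (x, t)) fun x hx => by
      rw [mono_pt hF hf hΨ hx htX (he x)]; ring] at h2
  refine h2.congr_of_eventuallyEq ?_
  filter_upwards [hev] with s hs
  simp only [hΨd, Phi, hs]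

end
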