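import Crest.Agent.N250.FV.Hu1

/-!
# Row 250, monotonicity formula (helper23): radial cut-offs and `HuiskenS`
-/

set_option autoImplicit false
open MeasureTheory Set Filter Topology
open scoped ContDiff InnerProductSpace
open Crest.GeometryTopology.MCF

noncomputable section

namespace Crest.Agent.N250.Hu

open Tr

variable {F : Mv} {p : ST}

theorem sm_q (F : Mv) (y : E) : F.Sm fun q : ST => ‖q.1 - y‖ ^ 2 :=
  ((contDiff_fst.sub contDiff_const).norm_sq ℝ).contDiffOn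

theorem D_q (hF : F.Reg) (hM : p ∈ F.M) (y : E) (a : Fin 3) :
    F.D a (fun q : ST => ‖q.1 - y‖ ^ 2) p = 2 * ((p.1 - y) a - F.xn y p * F.nu a p) := by
  rw [D_def, td_amb (hasFDeriv_q y p) (PL_mem hF hM _)]
  simp only [smul_apply, ContinuousLinearMap.comp_apply, ContinuousLinearMap.coe_fst',
    innerSL_apply_apply, smul_eq_mul, PL_ee, Mv.xn]

theorem Dt_q (hF : F.Reg) (hM : p ∈ F.M) (y : E) :
    F.Dt (fun q : ST => ‖q.1 - y‖ ^ 2) p = 2 * (F.V p * F.xn y p) := by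
  rw [Mv.Dt, td_amb (hasFDeriv_q y p) (vel_mem hF hM)]
  simp only [smul_apply, ContinuousLinearMap.comp_apply, ContinuousLinearMap.coe_fst',
    innerSL_apply_apply, smul_eq_mul, inner_smul_right, Mv.xn]

theorem sm_rad (F : Mv) {η : ℝ → ℝ} (hη : ContDiff ℝ ∞ η) (y : E) :
    F.Sm fun q : ST => η (‖q.1 - y‖ ^ 2) := hη.comp_contDiffOn (sm_q F y)

theorem D_rad (hF : F.Reg) (hM : p ∈ F.M) {η : ℝ → ℝ} (hη : ContDiff ℝ ∞ η) (y : E) (a : Fin 3) :
    F.D a (fun q : ST => η (‖q.1 - y‖ ^ 2)) p =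
      deriv η (‖p.1 - y‖ ^ 2) * (2 * ((p.1 - y) a - F.xn y p * F.nu a p)) := by
  rw [D_def, td_comp (sm_q F y) hM (PL_mem hF hM _)
    (hη.differentiable (by simp) _).hasDerivAt, ← D_def, D_q hF hM]

/-- the Laplacian of a radial function -/
theorem lap_rad (hF : F.Reg) (hM : p ∈ F.M) {η : ℝ → ℝ} (hη : ContDiff ℝ ∞ η) (y : E) :
    F.lap (fun q : ST => η (‖q.1 - y‖ ^ 2)) p =
      deriv η (‖p.1 - y‖ ^ 2) * (4 - 2 * F.H p * F.xn y p) +
      4 * deriv (deriv η) (‖p.1 - y‖ ^ 2) * (‖p.1 - y‖ ^ 2 - F.xn y p ^ 2) := by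
  have hη' : ContDiff ℝ ∞ (deriv η) := hη.iterate_deriv 1
  have e : ∀ a, F.D a (F.D a fun q : ST => η (‖q.1 - y‖ ^ 2)) p =
      deriv η (‖p.1 - y‖ ^ 2) * (2 * (F.D a (fun q : ST => (q.1 - y) a) p -
        (F.xn y p * F.D a (F.nu a) p + F.nu a p * F.D a (F.xn y) p))) +
      2 * ((p.1 - y) a - F.xn y p * F.nu a p) * (deriv (deriv η) (‖p.1 - y‖ ^ 2) *
        (2 * ((p.1 - y) a - F.xn y p * F.nu a p))) := fun a => by
    have hw := PL_mem hF hM (ee a)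
    have h1 := (sm_co F y a).sub ((sm_xn hF y).mul (sm_nu hF a))
    rw [D_congr hM (ev_of_on fun q hq => D_rad hF hq hη y a), D_def,
      td_mul (sm_rad F hη' y) (contDiffOn_const.mul h1) hM hw, td_cmul _ h1 hM hw,
      td_sub (sm_co F y a) ((sm_xn hF y).mul (sm_nu hF a)) hM hw,
      td_mul (sm_xn hF y) (sm_nu hF a) hM hw, ← D_def F a (fun q : ST => deriv η _),
      D_rad hF hM hη']
    rfl
  have s1 := sum_nu_D hF hM (F.xn y)
  have s2 := sum_D_co hF hM y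
  have s3 := sum_co_nu F y p
  have s4 := sum_co_sq y p.1
  have s5 := sum_nu_sq hF hM
  rw [lap_eq, H_eq]
  simp only [e]
  simp only [Fin.sum_univ_three] at s1 s2 s3 s4 s5 ⊢
  generalize deriv (deriv η) (‖p.1 - y‖ ^ 2) = d2
  generalize deriv η (‖p.1 - y‖ ^ 2) = d1
  linear_combination -2 * d1 * s1 + 2 * d1 * s2 + 4 * d2 * s4 - 8 * d2 * F.xn y p * s3
    + 4 * d2 * F.xn y p ^ 2 * s5

theorem Dt_rad (hF : F.Reg) (hM : p ∈ F.M) {η : ℝ → ℝ} (hη : ContDiff ℝ ∞ η) (y : E) :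
    F.Dt (fun q : ST => η (‖q.1 - y‖ ^ 2)) p =
      deriv η (‖p.1 - y‖ ^ 2) * (2 * (F.V p * F.xn y p)) := by
  rw [← Dt_q hF hM, Mv.Dt, td_comp (sm_q F y) hM (vel_mem hF hM)
    (hη.differentiable (by simp) _).hasDerivAt]
  rfl

/-- the heat operator of a radial function -/
theorem box_rad (hF : F.IsMCF) (hM : p ∈ F.M) {η : ℝ → ℝ} (hη : ContDiff ℝ ∞ η) (y : E) :
    F.box (fun q : ST => η (‖q.1 - y‖ ^ 2)) p = -(4 * deriv η (‖p.1 - y‖ ^ 2)) -
      4 * deriv (deriv η) (‖p.1 - y‖ ^ 2) * (‖p.1 - y‖ ^ 2 - F.xn y p ^ 2) := by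
  rw [Mv.box, Pi.sub_apply, Dt_rad hF.1 hM hη, lap_rad hF.1 hM hη, hF.2 p hM]
  ring

/-- the profile of the cut-offs -/
def eta (u : ℝ) : ℝ := Real.smoothTransition (2 - u)

theorem eta_sm : ContDiff ℝ ∞ eta :=
  Real.smoothTransition.contDiff.comp (contDiff_const.sub contDiff_id)

theorem eta_nonneg (u : ℝ) : 0 ≤ eta u := Real.smoothTransition.nonneg _

theorem eta_le (u : ℝ) : eta u ≤ 1 := Real.smoothTransition.le_one _

theorem eta_one {u : ℝ} (h : u ≤ 1) : eta u = 1 :=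
  Real.smoothTransition.one_of_one_le (by linarith)

theorem eta_zero {u : ℝ} (h : 2 ≤ u) : eta u = 0 :=
  Real.smoothTransition.zero_of_nonpos (by linarith)

theorem eta_anti : Antitone eta := fun _ _ h =>
  Real.smoothTransition.monotone (by linarith)

theorem eta_bd : ∃ C, 0 ≤ C ∧ ∀ u, 0 ≤ u → |deriv eta u| ≤ C ∧ |deriv (deriv eta) u| * u ≤ C := by
  have h1 : ContDiff ℝ ∞ (deriv eta) := eta_sm.iterate_deriv 1
  have h2 : ContDiff ℝ ∞ (deriv (deriv eta)) := h1.iterate_deriv 1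
  obtain ⟨A, hA⟩ := (isCompact_Icc (a := (0 : ℝ)) (b := 2)).exists_bound_of_continuousOn
    h1.continuous.continuousOn
  obtain ⟨B, hB⟩ := (isCompact_Icc (a := (0 : ℝ)) (b := 2)).exists_bound_of_continuousOn
    h2.continuous.continuousOn
  have hA0 : 0 ≤ A := (norm_nonneg _).trans (hA 0 ⟨le_rfl, by norm_num⟩)
  have hB0 : 0 ≤ B := (norm_nonneg _).trans (hB 0 ⟨le_rfl, by norm_num⟩)
  refine ⟨A + 2 * B, by positivity, fun u hu => ?_⟩
  rcases le_or_gt u 2 with h | h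
  · have a := hA u ⟨hu, h⟩
    have b := hB u ⟨hu, h⟩
    rw [Real.norm_eq_abs] at a b
    refine ⟨by linarith, ?_⟩
    nlinarith [mul_le_mul b h hu hB0]
  · have e0 : eta =ᶠ[𝓝 u] fun _ => 0 := by
      filter_upwards [Ioi_mem_nhds h] with v hv using eta_zero (le_of_lt hv)
    have e1 : deriv eta =ᶠ[𝓝 u] fun _ => 0 := by simpa using e0.deriv
    have e2 : deriv (deriv eta) u = 0 := by simpa using e1.deriv_eq
    rw [e2, e1.self_of_nhds]
    simp only [abs_zero, zero_mul]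
    exact ⟨by positivity, by positivity⟩

/-- the cut-off `η (ε |x - y|²)` -/
def cut (y : E) (ε : ℝ) (p : ST) : ℝ := eta (ε * ‖p.1 - y‖ ^ 2)

theorem cut_sm (y : E) (ε : ℝ) : ContDiff ℝ ∞ (cut y ε) :=
  eta_sm.comp (contDiff_const.mul ((contDiff_fst.sub contDiff_const).norm_sq ℝ))

theorem box_cut : ∃ C, 0 ≤ C ∧ ∀ (F : Mv) (y : E) (ε : ℝ) (p : ST), F.IsMCF → 0 ≤ ε → p ∈ F.M →
    |F.box (cut y ε) p| ≤ C * ε := by
  obtain ⟨C, hC, h⟩ := eta_bd
  refine ⟨8 * C, by positivity, fun F y ε p hF hε hM => ?_⟩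
  have h1 : ContDiff ℝ ∞ (deriv eta) := eta_sm.iterate_deriv 1
  have d1 : deriv (fun u => eta (ε * u)) = fun u => ε * deriv eta (ε * u) := by
    funext u; rw [deriv_comp_mul_left]; rfl
  have d2 : ∀ u, deriv (deriv fun u => eta (ε * u)) u = ε * (ε * deriv (deriv eta) (ε * u)) := by
    intro u
    rw [d1, deriv_const_mul_field, deriv_comp_mul_left]; rfl
  have := box_rad hF hM (η := fun u => eta (ε * u))
    (eta_sm.comp (contDiff_const.mul contDiff_id)) y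
  rw [show cut y ε = fun q : ST => (fun u => eta (ε * u)) (‖q.1 - y‖ ^ 2) from rfl, this, d2, d1]
  obtain ⟨a, b⟩ := h (ε * ‖p.1 - y‖ ^ 2) (by positivity)
  have c1 := xn_sq_le hF.1 hM y
  have c2 := sq_nonneg (F.xn y p)
  simp only
  generalize deriv (deriv eta) (ε * ‖p.1 - y‖ ^ 2) = e2 at b ⊢
  generalize deriv eta (ε * ‖p.1 - y‖ ^ 2) = e1 at a ⊢
  have k1 : |4 * (ε * e1)| ≤ 4 * C * ε := by
    rw [abs_mul, abs_mul, abs_of_nonneg hε, abs_of_nonneg (by norm_num : (0 : ℝ) ≤ 4)]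
    nlinarith [mul_le_mul_of_nonneg_left a hε]
  have k2 : |4 * (ε * (ε * e2)) * (‖p.1 - y‖ ^ 2 - F.xn y p ^ 2)| ≤ 4 * C * ε := by
    rw [abs_mul, abs_mul, abs_mul, abs_mul, abs_of_nonneg hε,
      abs_of_nonneg (by norm_num : (0 : ℝ) ≤ 4), abs_of_nonneg (sub_nonneg.2 c1)]
    have : |e2| * (ε * (‖p.1 - y‖ ^ 2 - F.xn y p ^ 2)) ≤ C :=
      (mul_le_mul_of_nonneg_left (mul_le_mul_of_nonneg_left (by linarith) hε)
        (abs_nonneg _)).trans b
    nlinarith [mul_le_mul_of_nonneg_left this hε]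
  calc _ ≤ |-(4 * (ε * e1))| + _ := abs_sub _ _
    _ ≤ _ := by rw [abs_neg]; linarith

/-- spatially bounded pieces of a complete flow over compact sets of times are compact -/
theorem cpt_fl {I L : Set ℝ} (hP : F.Proper (univ ×ˢ I)) (hL : IsCompact L) (hLI : L ⊆ I) (y : E)
    (R : ℝ) : IsCompact (F.M ∩ Metric.closedBall y R ×ˢ L) := by
  have : F.M ∩ Metric.closedBall y R ×ˢ L = (Metric.closedBall y R ×ˢ L) ∩ closure F.M := by
    ext q
    exact ⟨fun h => ⟨h.2, subset_closure h.1⟩, fun h => ⟨hP q h.2 ⟨trivial, hLI h.1.2⟩, h.1⟩⟩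
  rw [this]
  exact ((isCompact_closedBall _ _).prod hL).inter_right isClosed_closure

theorem cut_zero {y : E} {ε : ℝ} (hε : 0 < ε) (h : √(2 / ε) < ‖p.1 - y‖) : cut y ε p = 0 := by
  refine eta_zero ?_
  have h1 : 2 / ε < ‖p.1 - y‖ ^ 2 := Real.lt_sq_of_sqrt_lt h
  rw [div_lt_iff₀ hε] at h1
  linarith

theorem CS_cut {I L : Set ℝ} (hP : F.Proper (univ ×ˢ I)) (hL : IsCompact L) (hLI : L ⊆ I) (y : E)
    {ε : ℝ} (hε : 0 < ε) : F.CS (cut y ε) L :=
  ⟨_, cpt_fl hP hL hLI y √(2 / ε), inter_subset_left, fun p hp ht hk => cut_zero hε (by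
    by_contra h
    exact hk ⟨hp, by simpa [dist_eq_norm] using not_lt.1 h, ht⟩)⟩

theorem cut_mono (y : E) (p : ST) : Monotone fun k : ℕ => cut y (1 / ((k : ℝ) + 1)) p :=
  fun _ _ h => eta_anti (mul_le_mul_of_nonneg_right (Nat.one_div_le_one_div h) (by positivity))

theorem cut_ev (y : E) (p : ST) : ∀ᶠ k : ℕ in atTop, cut y (1 / ((k : ℝ) + 1)) p = 1 := by
  have h : Tendsto (fun k : ℕ => 1 / ((k : ℝ) + 1) * ‖p.1 - y‖ ^ 2) atTop (𝓝 (0 * _)) :=
    tendsto_one_div_add_atTop_nhds_zero_nat.mul_const _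
  filter_upwards [h.eventually (ge_mem_nhds (show 0 * ‖p.1 - y‖ ^ 2 < 1 by simp))] with k hk
  exact eta_one hk

theorem contOn_Phi (X : ST) : ContinuousOn (Phi X) {p | p.2 < X.2} := fun _ hp =>
  let ⟨_, h, _⟩ := hasFDeriv_Phi X hp
  h.continuousAt.continuousWithinAt

theorem contOn_dev (hF : F.Reg) (X : ST) : ContinuousOn (F.dev X) (F.M ∩ {p | p.2 < X.2}) :=
  ((sm_H hF).continuousOn.mono inter_subset_left).sub
    (((sm_xn hF X.1).continuousOn.mono inter_subset_left).div (by fun_prop) fun q hq =>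
      mul_ne_zero two_ne_zero (sub_pos.2 hq.2).ne')

theorem ar_max {Λ : ℝ} (h : F.AR Λ) : F.AR (max Λ 0) := fun t y r hr =>
  (h t y r hr).trans (ENNReal.ofReal_le_ofReal
    (mul_le_mul_of_nonneg_right (le_max_left _ _) (by positivity)))

end Crest.Agent.N250.Hu

end
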